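import Vale.Agent.P110.Exist.Sample
import Vale.Agent.P130.Rank.Spec

/-!
Averaging over a fast variable, exact for functions of bounded degree in the slow one.
-/

open Real Finset MeasureTheory
open Vale.Agent.P110.Exist (e e_add e_zero norm_e continuous_e e_neg e_int e_add_int)

namespace Vale.Agent.P130.Rank.GS

/-- Measurable, bounded and `1`-periodic. -/
def Nice (g : ℝ → ℂ) : Prop :=
  Measurable g ∧ (∃ C, ∀ x, ‖g x‖ ≤ C) ∧ ∀ x, g (x + 1) = g x

/-- A trigonometric polynomial in `t` of degree at most `d` whose coefficients are nice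
functions of `τ`. -/
def Sep (d : ℕ) (K : ℝ → ℝ → ℂ) : Prop :=
  ∃ (ι : Type) (_ : Fintype ι) (l : ι → ℤ) (g : ι → ℝ → ℂ),
    (∀ i, |l i| ≤ (d : ℤ)) ∧ (∀ i, Nice (g i)) ∧ ∀ t τ, K t τ = ∑ i, e ((l i : ℝ) * t) * g i τ

lemma Nice.intervalIntegrable {g : ℝ → ℂ} (hg : Nice g) (a b : ℝ) :
    IntervalIntegrable g volume a b := by
  obtain ⟨C, hC⟩ := hg.2.1
  exact IntervalIntegrable.mono_fun' (intervalIntegrable_const (c := C))
    hg.1.aestronglyMeasurable (ae_of_all _ hC)

lemma nice_const (c : ℂ) : Nice fun _ => c := ⟨measurable_const, ⟨‖c‖, fun _ => le_rfl⟩, fun _ => rfl⟩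

lemma nice_e (p : ℤ) : Nice fun x => e ((p : ℝ) * x) :=
  ⟨(continuous_e.comp (continuous_const_mul _)).measurable, ⟨1, fun x => (norm_e _).le⟩,
    fun x => show e _ = e _ by rw [mul_add, mul_one, e_add_int]⟩

lemma Nice.mul {g g' : ℝ → ℂ} (hg : Nice g) (hg' : Nice g') : Nice fun x => g x * g' x := by
  obtain ⟨C, hC⟩ := hg.2.1
  obtain ⟨C', hC'⟩ := hg'.2.1
  refine ⟨hg.1.mul hg'.1, ⟨C * C', fun x => ?_⟩, fun x => show g _ * g' _ = g x * g' x by rw [hg.2.2, hg'.2.2]⟩
  rw [norm_mul]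
  exact mul_le_mul (hC x) (hC' x) (norm_nonneg _) ((norm_nonneg _).trans (hC x))

lemma sep_single {d : ℕ} {l : ℤ} (hl : |l| ≤ (d : ℤ)) {g : ℝ → ℂ} (hg : Nice g) :
    Sep d fun t τ => e ((l : ℝ) * t) * g τ :=
  ⟨Unit, inferInstance, fun _ => l, fun _ => g, fun _ => hl, fun _ => hg, fun t τ => by simp⟩

lemma Sep.congr {d : ℕ} {K K' : ℝ → ℝ → ℂ} (h : Sep d K) (he : ∀ t τ, K' t τ = K t τ) :
    Sep d K' := by
  obtain ⟨ι, hι, l, g, h1, h2, h3⟩ := h
  exact ⟨ι, hι, l, g, h1, h2, fun t τ => (he t τ).trans (h3 t τ)⟩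

lemma Sep.mono {d d' : ℕ} {K : ℝ → ℝ → ℂ} (h : Sep d K) (hd : d ≤ d') : Sep d' K := by
  obtain ⟨ι, hι, l, g, h1, h2, h3⟩ := h
  exact ⟨ι, hι, l, g, fun i => (h1 i).trans (by exact_mod_cast hd), h2, h3⟩

lemma sep_const (c : ℂ) : Sep 0 fun _ _ => c :=
  (sep_single (l := 0) (by simp) (nice_const c)).congr fun t τ => by simp [e_zero]

lemma Sep.mul {d d' : ℕ} {K K' : ℝ → ℝ → ℂ} (h : Sep d K) (h' : Sep d' K') :
    Sep (d + d') fun t τ => K t τ * K' t τ := by
  obtain ⟨ι, hι, l, g, h1, h2, h3⟩ := h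
  obtain ⟨κ, hκ, l', g', h1', h2', h3'⟩ := h'
  refine ⟨ι × κ, inferInstance, fun p => l p.1 + l' p.2, fun p x => g p.1 x * g' p.2 x,
    fun p => ?_, fun p => (h2 _).mul (h2' _), fun t τ => ?_⟩
  · refine (abs_add_le _ _).trans ?_
    push_cast
    exact add_le_add (h1 _) (h1' _)
  · show K t τ * K' t τ = _
    rw [h3, h3', sum_mul_sum, Fintype.sum_prod_type]
    refine sum_congr rfl fun i _ => sum_congr rfl fun j _ => ?_
    rw [Int.cast_add, add_mul, e_add]; ring

lemma sep_sum {d : ℕ} {α : Type} [DecidableEq α] (s : Finset α) {K : α → ℝ → ℝ → ℂ}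
    (h : ∀ a ∈ s, Sep d (K a)) : Sep d fun t τ => ∑ a ∈ s, K a t τ := by
  induction s using Finset.induction_on with
  | empty =>
    exact ⟨Empty, inferInstance, Empty.elim, Empty.elim, fun i => i.elim, fun i => i.elim,
      fun t τ => by simp⟩
  | insert a s ha ih =>
    obtain ⟨ι, hι, l, g, h1, h2, h3⟩ := h a (mem_insert_self a s)
    obtain ⟨κ, hκ, l', g', h1', h2', h3'⟩ := ih fun b hb => h b (mem_insert_of_mem hb)
    refine ⟨ι ⊕ κ, inferInstance, Sum.elim l l', Sum.elim g g', fun i => ?_, fun i => ?_,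
      fun t τ => ?_⟩
    · cases i with
      | inl i => exact h1 i
      | inr i => exact h1' i
    · cases i with
      | inl i => exact h2 i
      | inr i => exact h2' i
    · show ∑ b ∈ insert a s, K b t τ = _
      rw [sum_insert ha, Fintype.sum_sum_type]
      simp only [Sum.elim_inl, Sum.elim_inr]
      rw [← h3, ← h3']

/-- Averaging one character against a periodic function of the fast variable. -/
lemma integral_e_mul_comp {H : ℕ} {l : ℤ} (hl : |l| < (H : ℤ)) {g : ℝ → ℂ} (hg : Nice g) :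
    ∫ t in (0 : ℝ)..1, e ((l : ℝ) * t) * g ((H : ℝ) * t) =
      if l = 0 then ∫ τ in (0 : ℝ)..1, g τ else 0 := by
  have hH : (0 : ℝ) < H := by
    have : (0 : ℤ) < H := lt_of_le_of_lt (abs_nonneg l) hl
    exact_mod_cast this
  set φ : ℝ → ℂ := fun t => e ((l : ℝ) * t) * g ((H : ℝ) * t) with hφ
  have hφi : ∀ a b, IntervalIntegrable φ volume a b := by
    intro a b
    obtain ⟨C, hC⟩ := hg.2.1
    refine IntervalIntegrable.mono_fun' (intervalIntegrable_const (c := C))
      (((continuous_e.comp (continuous_const_mul _)).measurable).mul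
        (hg.1.comp (measurable_const_mul _))).aestronglyMeasurable (ae_of_all _ fun t => ?_)
    simp only [hφ, norm_mul, norm_e, one_mul]
    exact hC _
  have hper : ∀ (k : ℕ) x, g (x + k) = g x := by
    intro k x
    induction k with
    | zero => simp
    | succ k ih => rw [Nat.cast_succ, ← add_assoc, hg.2.2, ih]
  have hsum := intervalIntegral.sum_integral_adjacent_intervals (f := φ) (μ := volume)
    (a := fun k : ℕ => (k : ℝ) / H) (n := H) fun k _ => hφi _ _
  simp only [CharP.cast_eq_zero, zero_div, div_self hH.ne'] at hsum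
  rw [← hsum]
  have hpiece : ∀ k : ℕ, ∫ t in (k : ℝ) / H..((k + 1 : ℕ) : ℝ) / H, φ t =
      e ((l : ℝ) * k / H) * ∫ t in (0 : ℝ)..1 / H, φ t := by
    intro k
    have h := intervalIntegral.integral_comp_add_right φ ((k : ℝ) / H) (a := 0) (b := 1 / H)
    rw [zero_add, show 1 / (H : ℝ) + (k : ℝ) / H = ((k + 1 : ℕ) : ℝ) / H by push_cast; ring] at h
    rw [← h, ← intervalIntegral.integral_const_mul]
    refine intervalIntegral.integral_congr fun t _ => ?_
    simp only [hφ]
    rw [mul_add (l : ℝ), e_add, mul_add, mul_div_cancel₀ _ hH.ne', hper, mul_div_assoc]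
    ring
  simp only [hpiece, ← Finset.sum_mul]
  rw [Vale.Agent.P110.Exist.Sample.sum_char l hl]
  split_ifs with h0
  · subst h0
    simp only [hφ, Int.cast_zero, zero_mul, e_zero, one_mul]
    rw [intervalIntegral.integral_comp_mul_left g hH.ne', mul_zero, mul_one_div_cancel hH.ne',
      Complex.real_smul, ← mul_assoc]
    push_cast
    rw [mul_inv_cancel₀ (by exact_mod_cast hH.ne'), one_mul]
  · rw [zero_mul]

lemma integral_e (p : ℤ) : ∫ t in (0 : ℝ)..1, e ((p : ℝ) * t) = if p = 0 then 1 else 0 := by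
  have h := integral_e_mul_comp (H := p.natAbs + 1) (l := p) (by push_cast; simp)
    (nice_const 1)
  simpa using h

lemma Sep.continuous_left {d : ℕ} {K : ℝ → ℝ → ℂ} (h : Sep d K) (τ : ℝ) :
    Continuous fun t => K t τ := by
  obtain ⟨ι, hι, l, g, -, -, h3⟩ := h
  simp only [h3]
  exact continuous_finsetSum _ fun i _ =>
    (continuous_e.comp (continuous_const_mul _)).mul continuous_const

lemma Sep.intervalIntegrable_right {d : ℕ} {K : ℝ → ℝ → ℂ} (h : Sep d K) (t a b : ℝ) :
    IntervalIntegrable (K t) volume a b := by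
  obtain ⟨ι, hι, l, g, -, h2, h3⟩ := h
  rw [show K t = ∑ i, fun τ => e ((l i : ℝ) * t) * g i τ by
    funext τ; rw [h3, Finset.sum_apply]]
  exact IntervalIntegrable.sum _ fun i _ => ((h2 i).intervalIntegrable a b).const_mul _

lemma Sep.continuous_integral {d : ℕ} {K : ℝ → ℝ → ℂ} (h : Sep d K) :
    Continuous fun t => ∫ τ in (0 : ℝ)..1, K t τ := by
  obtain ⟨ι, hι, l, g, -, h2, h3⟩ := h
  simp only [h3]
  refine (continuous_finsetSum univ fun i _ => ((continuous_e.comp (continuous_const_mul (l i : ℝ))).mul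
    (continuous_const (y := ∫ τ in (0 : ℝ)..1, g i τ)))).congr fun t => ?_
  rw [intervalIntegral.integral_finsetSum fun i _ => ((h2 i).intervalIntegrable 0 1).const_mul _]
  simp [intervalIntegral.integral_const_mul]

lemma Sep.measurable_diag {d : ℕ} {K : ℝ → ℝ → ℂ} (h : Sep d K) (H : ℕ) :
    Measurable fun t => K t ((H : ℝ) * t) := by
  obtain ⟨ι, hι, l, g, -, h2, h3⟩ := h
  simp only [h3]
  exact Finset.measurable_sum _ fun i _ =>
    ((continuous_e.comp (continuous_const_mul _)).measurable).mul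
      ((h2 i).1.comp (measurable_const_mul _))

lemma Sep.intervalIntegrable_diag {d : ℕ} {K : ℝ → ℝ → ℂ} (h : Sep d K) (H : ℕ) (a b : ℝ) :
    IntervalIntegrable (fun t => K t ((H : ℝ) * t)) volume a b := by
  have hm := h.measurable_diag H
  obtain ⟨ι, hι, l, g, -, h2, h3⟩ := h
  choose C hC using fun i => (h2 i).2.1
  refine IntervalIntegrable.mono_fun' (intervalIntegrable_const (c := ∑ i, C i))
    hm.aestronglyMeasurable (ae_of_all _ fun t => ?_)
  show ‖K t ((H : ℝ) * t)‖ ≤ _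
  rw [h3]
  refine (norm_sum_le _ _).trans (sum_le_sum fun i _ => ?_)
  rw [norm_mul, norm_e, one_mul]
  exact hC i _

/-- **Exact averaging.** -/
theorem Sep.integral_diag {d H : ℕ} {K : ℝ → ℝ → ℂ} (h : Sep d K) (hd : d < H) :
    ∫ t in (0 : ℝ)..1, K t ((H : ℝ) * t) = ∫ t in (0 : ℝ)..1, ∫ τ in (0 : ℝ)..1, K t τ := by
  obtain ⟨ι, hι, l, g, h1, h2, h3⟩ := h
  simp only [h3]
  have hint : ∀ t, ∫ τ in (0 : ℝ)..1, ∑ i, e ((l i : ℝ) * t) * g i τ =
      ∑ i, e ((l i : ℝ) * t) * ∫ τ in (0 : ℝ)..1, g i τ := fun t => by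
    rw [intervalIntegral.integral_finsetSum fun i _ => ((h2 i).intervalIntegrable 0 1).const_mul _]
    simp [intervalIntegral.integral_const_mul]
  simp only [hint]
  have hR : ∀ i, IntervalIntegrable (fun t => e ((l i : ℝ) * t) * ∫ τ in (0 : ℝ)..1, g i τ)
      volume 0 1 := fun i =>
    ((continuous_e.comp' (continuous_const_mul (l i : ℝ))).mul continuous_const).intervalIntegrable 0 1
  rw [intervalIntegral.integral_finsetSum fun i _ =>
      ((sep_single (h1 i) (h2 i)).intervalIntegrable_diag H 0 1),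
    intervalIntegral.integral_finsetSum fun i _ => hR i]
  refine sum_congr rfl fun i _ => ?_
  rw [integral_e_mul_comp ((h1 i).trans_lt (by exact_mod_cast hd)) (h2 i),
    intervalIntegral.integral_mul_const, integral_e]
  split_ifs <;> simp

end Vale.Agent.P130.Rank.GS
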