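import Vale.Agent.P130.Rank.GoodStages.Weight

/-!
General facts about the polynomials of cutting and stacking data.
-/

open Real Finset MeasureTheory
open Vale.Agent.P110.Exist (e e_add e_zero norm_e continuous_e e_neg e_int e_add_int)

namespace Vale.Agent.P130.Rank.GS

lemma e_inj {a b : ℝ} (ha : a ∈ Set.Ioc (0 : ℝ) 1) (hb : b ∈ Set.Ioc (0 : ℝ) 1) (h : e a = e b) :
    a = b := by
  obtain ⟨k, hk⟩ := Complex.exp_eq_exp_iff_exists_int.1 h
  have h2 : (((2 * π * a : ℝ) : ℂ) * Complex.I).im =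
      ((((2 * π * b : ℝ) : ℂ) * Complex.I) + (k : ℂ) * (2 * π * Complex.I)).im := by rw [hk]
  simp at h2
  have h3 : a = b + (k : ℝ) := mul_left_cancel₀ (show (2 * π : ℝ) ≠ 0 by positivity) (by linarith)
  have h4 : -1 < k := by
    exact_mod_cast (show (-1 : ℝ) < k by linarith [ha.1, hb.2])
  have h5 : k < 1 := by
    exact_mod_cast (show (k : ℝ) < 1 by linarith [ha.2, hb.1])
  have h6 : k = 0 := by omega
  simp [h3, h6]

variable (S : Stages)

lemma h_step (n : ℕ) : S.h n ≤ S.h (n + 1) := by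
  rw [S.h_succ]
  have h : 1 * S.h n ≤ S.m n * S.h n := Nat.mul_le_mul_right _ (by have := S.two_le_m n; omega)
  omega

lemma h_two (n : ℕ) : 2 ≤ S.h n := S.two_le_h.trans (monotone_nat_of_le_succ (h_step S) n.zero_le)

lemma off_add_le {n j : ℕ} (hj : j < S.m n) : S.off n j + S.h n ≤ S.h (n + 1) := by
  rw [S.h_succ, Stages.off]
  have h1 : ∑ i ∈ range j, S.s n i ≤ ∑ i ∈ range (S.m n), S.s n i :=
    sum_le_sum_of_subset (range_mono hj.le)
  have h2 : (j + 1) * S.h n ≤ S.m n * S.h n := Nat.mul_le_mul_right _ hj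
  rw [add_mul, one_mul] at h2
  omega

lemma continuous_pol (n : ℕ) : Continuous (S.pol n) := by
  unfold Stages.pol
  exact (continuous_finsetSum _ fun j _ => continuous_e.comp' (by fun_prop)).div_const _

lemma sep_sq (n : ℕ) :
    Sep (S.h (n + 1) - S.h n) fun t _ => ((‖S.pol n t‖ ^ 2 : ℝ) : ℂ) := by
  refine (sep_sum (range (S.m n)) (K := fun j t τ => ∑ k ∈ range (S.m n),
    e ((((S.off n j : ℤ) - S.off n k : ℤ) : ℝ) * t) * (1 / (S.m n : ℂ))) fun j hj =>
    sep_sum _ fun k hk => sep_single ?_ (nice_const _)).congr fun t _ => ?_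
  · have h1 := off_add_le S (mem_range.1 hj)
    have h2 := off_add_le S (mem_range.1 hk)
    rw [abs_le]; omega
  · rw [Complex.ofReal_pow, ← Complex.mul_conj', Stages.pol, map_div₀, map_sum,
      Complex.conj_ofReal, div_mul_div_comm, sum_mul_sum, ← Complex.ofReal_mul,
      Real.mul_self_sqrt (Nat.cast_nonneg _), Complex.ofReal_natCast, Finset.sum_div]
    refine sum_congr rfl fun j _ => ?_
    rw [Finset.sum_div]
    refine sum_congr rfl fun k _ => ?_
    rw [← e_neg, ← e_add,
      show t * (S.off n j : ℝ) + -(t * (S.off n k : ℝ)) =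
        (((S.off n j : ℤ) - S.off n k : ℤ) : ℝ) * t by push_cast; ring, ← div_eq_mul_one_div]

/-- The product of `k` squared polynomials starting with stage `n`. -/
noncomputable def prd (n k : ℕ) (t : ℝ) : ℝ := ∏ i ∈ range k, ‖S.pol (n + i) t‖ ^ 2

lemma prd_nonneg (n k : ℕ) (t : ℝ) : 0 ≤ prd S n k t :=
  prod_nonneg fun _ _ => sq_nonneg _

lemma sep_prd (n k : ℕ) : Sep (S.h (n + k) - S.h n) fun t _ => ((prd S n k t : ℝ) : ℂ) := by
  induction k with
  | zero => exact ((sep_const 1).mono (Nat.zero_le _)).congr fun t _ => by simp [prd]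
  | succ k ih =>
    refine ((ih.mul (sep_sq S (n + k))).mono ?_).congr fun t _ => ?_
    · have h1 := monotone_nat_of_le_succ (h_step S) (n.le_add_right k)
      have h2 := h_step S (n + k)
      rw [← add_assoc]
      omega
    · simp only [prd, prod_range_succ, Complex.ofReal_mul]

lemma norm_one_sub_e (t : ℝ) : ‖1 - e t‖ ^ 2 ≤ 4 := by
  have h := norm_sub_le (1 : ℂ) (e t)
  rw [norm_one, norm_e] at h
  nlinarith [norm_nonneg (1 - e t)]

lemma sep_dens (n k : ℕ) : Sep (S.h (n + k)) fun t _ => ((S.dens n k t : ℝ) : ℂ) := by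
  have h1 : Sep 1 fun t _ => 1 - e t := by
    refine (sep_sum (range 2) (K := fun a t τ =>
      e (((a : ℤ) : ℝ) * t) * (if a = 0 then 1 else -1)) fun a ha =>
      sep_single (by rw [mem_range] at ha; rw [Nat.abs_cast]; omega) (nice_const _)).congr
      fun t _ => ?_
    simp [sum_range_succ, e_zero, sub_eq_add_neg]
  refine (((h1.mul (sep_conj h1)).mul (sep_prd S n k)).mono ?_).congr fun t _ => ?_
  · have h2 := monotone_nat_of_le_succ (h_step S) (n.le_add_right k)
    have h3 := h_two S n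
    omega
  · rw [Stages.dens, Complex.ofReal_mul, Complex.ofReal_pow, ← Complex.mul_conj']
    rfl

lemma dens_nonneg (n k : ℕ) (t : ℝ) : 0 ≤ S.dens n k t :=
  mul_nonneg (sq_nonneg _) (prd_nonneg S n k t)

lemma continuous_prd (n k : ℕ) : Continuous (prd S n k) := by
  unfold prd
  exact continuous_finsetProd _ fun i _ => (continuous_pol S _).norm.pow 2

lemma continuous_dens (n k : ℕ) : Continuous (S.dens n k) :=
  ((continuous_const.sub continuous_e).norm.pow 2).mul (continuous_prd S n k)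

lemma pol_ne_zero (n : ℕ) : ∀ᵐ t ∂(volume.restrict (Set.Ioc (0 : ℝ) 1)), S.pol n t ≠ 0 := by
  set p : Polynomial ℂ := ∑ j ∈ range (S.m n), Polynomial.X ^ S.off n j with hp
  have hm := S.two_le_m n
  have hp0 : p ≠ 0 := fun h => by
    have h1 : p.eval 1 = (S.m n : ℂ) := by simp [hp, Polynomial.eval_finsetSum]
    rw [h, Polynomial.eval_zero] at h1
    have : S.m n = 0 := by exact_mod_cast h1.symm
    omega
  have hfin : {t ∈ Set.Ioc (0 : ℝ) 1 | p.IsRoot (e t)}.Finite :=
    ((Polynomial.finite_setOfPred_isRoot hp0).subset (by rintro _ ⟨t, ht, rfl⟩; exact ht.2)).of_finite_image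
      fun a ha b hb h => e_inj ha.1 hb.1 h
  refine (ae_restrict_iff' measurableSet_Ioc).2
    ((hfin.countable.ae_notMem volume).mono fun t ht htI h0 => ht ⟨htI, ?_⟩)
  rw [Stages.pol, div_eq_zero_iff, or_iff_left (by
    simp only [Complex.ofReal_eq_zero, Real.sqrt_eq_zero (Nat.cast_nonneg _)]
    exact_mod_cast (by omega : S.m n ≠ 0))] at h0
  simpa [Polynomial.IsRoot, hp, Polynomial.eval_finsetSum, ← e_pow, mul_comm] using h0

lemma dens_zero_pos (n : ℕ) :
    ∀ᵐ t ∂(volume.restrict (Set.Ioc (0 : ℝ) 1)), 0 < S.dens n 0 t := by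
  refine (ae_restrict_iff' measurableSet_Ioc).2
    (((Set.countable_singleton (1 : ℝ)).ae_notMem volume).mono fun t ht htI => ?_)
  have hne : 1 - e t ≠ 0 := fun h => ht (e_inj htI ⟨one_pos, le_rfl⟩ (by
    rw [← sub_eq_zero.1 h]; exact_mod_cast (e_int 1).symm))
  simp only [Stages.dens, prod_range_zero, mul_one]
  exact pow_pos (norm_pos_iff.2 hne) 2

end Vale.Agent.P130.Rank.GS
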