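import Vale.Agent.P130.Rank.GoodStages.Avg

/-!
A flat graph gives a factor of modulus close to one in mean square for every weight of small
degree.
-/

open Real Finset MeasureTheory
open Vale.Agent.P110.Exist (e e_add e_zero norm_e continuous_e e_neg e_int e_add_int)
open Vale.Agent.P110.Exist.Sample (fejer fejer_nonneg fejer_eq sum_fejer)

namespace Vale.Agent.P130.Rank.GS

lemma norm_e_sub_one (u : ℝ) : ‖e u - 1‖ = 2 * |Real.sin (π * u)| := by
  rw [e, mul_comm, Complex.norm_exp_I_mul_ofReal_sub_one, show 2 * π * u / 2 = π * u by ring,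
    norm_mul, Real.norm_eq_abs, Real.norm_eq_abs, abs_two]

lemma norm_e_sub_one_le (u : ℝ) : ‖e u - 1‖ ≤ 2 * π * |u| := by
  rw [norm_e_sub_one, mul_assoc, ← abs_of_pos pi_pos, ← abs_mul, abs_of_pos pi_pos]
  exact mul_le_mul_of_nonneg_left Real.abs_sin_le_abs (by norm_num)

lemma norm_e_sub_e (a b : ℝ) : ‖e a - e b‖ ≤ 2 * π * |a - b| := by
  have : e a - e b = e b * (e (a - b) - 1) := by rw [mul_sub, ← e_add, mul_one, add_sub_cancel]
  rw [this, norm_mul, norm_e, one_mul]
  exact norm_e_sub_one_le _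

lemma e_pow (u : ℝ) (k : ℕ) : e (k * u) = e u ^ k := Vale.Agent.P110.Exist.Sample.e_nat_mul u k

lemma sin_ge {v ρ : ℝ} (hρ : 0 < ρ) (h1 : ρ ≤ v) (h2 : v ≤ 1 - ρ) : 2 * ρ ≤ Real.sin (π * v) := by
  have key : ∀ w, ρ ≤ w → w ≤ 1 / 2 → 2 * ρ ≤ Real.sin (π * w) := by
    intro w hw1 hw2
    have h := Real.mul_le_sin (x := π * w) (by positivity [hρ.le.trans hw1])
      (by nlinarith [pi_pos])
    rw [show 2 / π * (π * w) = 2 * w by field_simp] at h
    linarith
  rcases le_total v (1 / 2) with h | h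
  · exact key v h1 h
  · have := key (1 - v) (by linarith) (by linarith)
    rwa [mul_sub, mul_one, Real.sin_pi_sub] at this

lemma fejer_small {n : ℕ} {ρ : ℝ} (hn : 0 < n) (hρ : 0 < ρ) {u : ℝ} (h1 : ρ ≤ |u|)
    (h2 : |u| ≤ 1 - ρ) : fejer n u ≤ 1 / (4 * ρ ^ 2 * n) := by
  have hs : 4 * ρ ≤ ‖e u - 1‖ := by
    rw [norm_e_sub_one]
    have := sin_ge hρ h1 h2
    rcases abs_choice u with h | h <;> rw [h] at this
    · linarith [le_abs_self (Real.sin (π * u))]
    · rw [mul_neg, Real.sin_neg] at this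
      linarith [neg_le_abs (Real.sin (π * u))]
  have hne : e u ≠ 1 := fun h => by simp [h] at hs; linarith
  have hsum : ‖∑ a ∈ range n, e ((a : ℝ) * u)‖ ≤ 1 / (2 * ρ) := by
    simp only [e_pow]
    rw [geom_sum_eq hne, norm_div, div_le_iff₀ (by linarith)]
    refine (norm_sub_le _ _).trans ?_
    rw [norm_pow, norm_e, one_pow, norm_one, one_div_mul_eq_div, le_div_iff₀ (by positivity)]
    linarith
  rw [fejer, div_le_iff₀ (by positivity)]
  refine (pow_le_pow_left₀ (norm_nonneg _) hsum 2).trans_eq ?_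
  field_simp
  ring

/-- `∫ ‖∑ c_j e(jτ)‖² = ∑ ‖c_j‖²`. -/
lemma integral_norm_sq {m : ℕ} (c : ℕ → ℂ) :
    ∫ τ in (0 : ℝ)..1, ‖∑ j ∈ range m, c j * e (τ * (j : ℝ))‖ ^ 2 = ∑ j ∈ range m, ‖c j‖ ^ 2 := by
  apply Complex.ofReal_injective
  rw [← intervalIntegral.integral_ofReal]
  have he : ∀ τ : ℝ, ((‖∑ j ∈ range m, c j * e (τ * (j : ℝ))‖ ^ 2 : ℝ) : ℂ) =
      ∑ j ∈ range m, ∑ k ∈ range m,
        c j * (starRingEnd ℂ) (c k) * e ((((j : ℤ) - k : ℤ) : ℝ) * τ) := by
    intro τ
    rw [Complex.ofReal_pow, ← Complex.mul_conj', map_sum, sum_mul_sum]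
    refine sum_congr rfl fun j _ => sum_congr rfl fun k _ => ?_
    rw [map_mul, ← e_neg,
      show (((j : ℤ) - k : ℤ) : ℝ) * τ = τ * (j : ℝ) + -(τ * (k : ℝ)) by push_cast; ring, e_add]
    ring
  simp only [he]
  have hi : ∀ j k : ℕ, IntervalIntegrable
      (fun τ => c j * (starRingEnd ℂ) (c k) * e ((((j : ℤ) - k : ℤ) : ℝ) * τ)) volume 0 1 :=
    fun j k => (continuous_const.mul
      (continuous_e.comp' (continuous_const_mul _))).intervalIntegrable 0 1
  have hin : ∀ j : ℕ, IntervalIntegrable (fun τ => ∑ k ∈ range m,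
      c j * (starRingEnd ℂ) (c k) * e ((((j : ℤ) - k : ℤ) : ℝ) * τ)) volume 0 1 := fun j =>
    (continuous_finsetSum _ fun k _ => continuous_const.mul
      (continuous_e.comp' (continuous_const_mul _))).intervalIntegrable 0 1
  rw [intervalIntegral.integral_finsetSum fun j _ => hin j]
  rw [Complex.ofReal_sum]
  refine sum_congr rfl fun j hj => ?_
  rw [intervalIntegral.integral_finsetSum fun k _ => hi j k, sum_eq_single j]
  · rw [intervalIntegral.integral_const_mul, integral_e, if_pos (by ring), mul_one,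
      Complex.mul_conj', Complex.ofReal_pow]
  · intro k _ hkj
    rw [intervalIntegral.integral_const_mul, integral_e, if_neg (by omega), mul_zero]
  · exact fun h => absurd hj h

/-- `∫ ‖∑ c_j e(jτ)‖ ≤ s` when `∑ ‖c_j‖² ≤ s²`. -/
lemma integral_norm_le {m : ℕ} (c : ℕ → ℂ) {s : ℝ} (hs : 0 < s)
    (h : ∑ j ∈ range m, ‖c j‖ ^ 2 ≤ s ^ 2) :
    ∫ τ in (0 : ℝ)..1, ‖∑ j ∈ range m, c j * e (τ * (j : ℝ))‖ ≤ s := by
  have hc : Continuous fun τ : ℝ => ‖∑ j ∈ range m, c j * e (τ * (j : ℝ))‖ :=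
    (continuous_finsetSum _ fun j _ =>
      continuous_const.mul (continuous_e.comp' (continuous_mul_const _))).norm
  have hi := ((hc.fun_pow 2).div_const (2 * s)).intervalIntegrable (μ := volume) 0 1
  refine le_trans (intervalIntegral.integral_mono_on
    (g := fun τ => ‖∑ j ∈ range m, c j * e (τ * (j : ℝ))‖ ^ 2 / (2 * s) + s / 2) zero_le_one
    (hc.intervalIntegrable 0 1) (hi.add intervalIntegrable_const) fun τ _ => ?_) ?_
  · set x := ‖∑ j ∈ range m, c j * e (τ * (j : ℝ))‖
    rw [div_add_div _ _ (by positivity) two_ne_zero, le_div_iff₀ (by positivity)]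
    nlinarith [sq_nonneg (x - s)]
  · rw [intervalIntegral.integral_add hi intervalIntegrable_const, intervalIntegral.integral_div,
      integral_norm_sq, intervalIntegral.integral_const]
    simp only [sub_zero, one_smul]
    rw [div_add_div _ _ (by positivity) two_ne_zero, div_le_iff₀ (by positivity)]
    nlinarith

lemma graphSum_eq (m : ℕ) (f : ℕ → ℕ) (t τ : ℝ) :
    graphSum m f t τ = ∑ j ∈ range m, e (t * (f j : ℝ)) * e (τ * (j : ℝ)) := by
  simp [graphSum, e_add]

lemma sep_graphSum (m : ℕ) (f : ℕ → ℕ) (R : ℕ) (hf : ∀ j, f j < R) : Sep R (graphSum m f) := by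
  refine (sep_sum (range m) (K := fun j t τ => e (((f j : ℤ) : ℝ) * t) * e (((j : ℤ) : ℝ) * τ))
    fun j _ => sep_single ?_ (nice_e _)).congr fun t τ => ?_
  · rw [Nat.abs_cast]; exact_mod_cast (hf j).le
  · simp [graphSum_eq, mul_comm]

lemma sep_conj {d : ℕ} {K : ℝ → ℝ → ℂ} (h : Sep d K) :
    Sep d fun t τ => (starRingEnd ℂ) (K t τ) := by
  obtain ⟨ι, hι, l, g, h1, h2, h3⟩ := h
  refine ⟨ι, hι, fun i => -l i, fun i τ => (starRingEnd ℂ) (g i τ), fun i => by rw [abs_neg]; exact h1 i,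
    fun i => ⟨Complex.continuous_conj.measurable.comp (h2 i).1, ?_, fun x => congrArg (starRingEnd ℂ) ((h2 i).2.2 x)⟩,
    fun t τ => ?_⟩
  · obtain ⟨C, hC⟩ := (h2 i).2.1
    exact ⟨C, fun x => by rw [Complex.norm_conj]; exact hC x⟩
  · beta_reduce
    rw [h3, map_sum]
    refine sum_congr rfl fun i _ => ?_
    rw [map_mul, ← e_neg]; push_cast; ring_nf

/-- The sampled conjugate phase. -/
noncomputable def phase (m : ℕ) (f : ℕ → ℕ) (n s : ℕ) (τ : ℝ) : ℂ :=
  (starRingEnd ℂ) (graphSum m f ((s : ℝ) / (4 * n : ℕ)) τ) /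
    (‖graphSum m f ((s : ℝ) / (4 * n : ℕ)) τ‖ : ℂ)

lemma norm_phase_le (m : ℕ) (f : ℕ → ℕ) (n s : ℕ) (τ : ℝ) : ‖phase m f n s τ‖ ≤ 1 := by
  rw [phase, norm_div, Complex.norm_conj, Complex.norm_real, norm_norm]
  exact div_self_le_one _

lemma nice_phase (m : ℕ) (f : ℕ → ℕ) (n s : ℕ) : Nice (phase m f n s) := by
  have hc : Continuous fun τ => graphSum m f ((s : ℝ) / (4 * n : ℕ)) τ := by
    unfold graphSum
    exact continuous_finsetSum _ fun j _ => continuous_e.comp' (by fun_prop)
  refine ⟨(Complex.continuous_conj.measurable.comp hc.measurable).div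
    (Complex.measurable_ofReal.comp hc.norm.measurable), ⟨1, norm_phase_le m f n s⟩, fun x => ?_⟩
  have hp : ∀ t, graphSum m f t (x + 1) = graphSum m f t x := fun t => by
    simp only [graphSum, add_mul, one_mul, ← add_assoc]
    exact sum_congr rfl fun j _ => by exact_mod_cast e_add_int _ (j : ℤ)
  simp only [phase, hp]

/-- The test function, of degree `n` in `t`. -/
noncomputable def test (m : ℕ) (f : ℕ → ℕ) (n : ℕ) (t τ : ℝ) : ℂ :=
  ∑ s ∈ range (4 * n), ((fejer n (t - (s : ℝ) / (4 * n : ℕ)) / (4 * n : ℕ) : ℝ) : ℂ) *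
    phase m f n s τ

lemma sep_test (m : ℕ) (f : ℕ → ℕ) (n : ℕ) : Sep n (test m f n) := by
  refine (sep_sum (range (4 * n)) (K := fun s t τ => ∑ b ∈ range n, ∑ a ∈ range n,
    e ((((a : ℤ) - b : ℤ) : ℝ) * t) *
      (e (-((((a : ℤ) - b : ℤ) : ℝ) * ((s : ℝ) / (4 * n : ℕ)))) / ((n : ℂ) * (4 * n : ℕ)) *
        phase m f n s τ)) fun s _ =>
    sep_sum _ fun b hb => sep_sum _ fun a ha =>
      sep_single (by rw [mem_range] at ha hb; rw [abs_le]; omega)
        ((nice_const _).mul (nice_phase m f n s))).congr fun t τ => ?_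
  simp only [test]
  refine sum_congr rfl fun s _ => ?_
  rw [Complex.ofReal_div, fejer_eq, Complex.ofReal_natCast, div_div, Finset.sum_div,
    Finset.sum_mul]
  refine sum_congr rfl fun b _ => ?_
  rw [Finset.sum_div, Finset.sum_mul]
  refine sum_congr rfl fun a _ => ?_
  rw [show ((a : ℝ) - b) * (t - (s : ℝ) / (4 * n : ℕ)) =
    (((a : ℤ) - b : ℤ) : ℝ) * t + -((((a : ℤ) - b : ℤ) : ℝ) * ((s : ℝ) / (4 * n : ℕ))) by
      push_cast; ring, e_add]
  ring

lemma norm_test_le {m : ℕ} {f : ℕ → ℕ} {n : ℕ} (hn : 0 < n) (t τ : ℝ) :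
    ‖test m f n t τ‖ ≤ 1 := by
  unfold test
  refine (norm_sum_le _ _).trans ((sum_le_sum
    (g := fun s : ℕ => fejer n (t - (s : ℝ) / (4 * n : ℕ)) / (4 * n : ℕ)) fun s _ => ?_).trans_eq ?_)
  · rw [norm_mul, Complex.norm_real, Real.norm_of_nonneg (div_nonneg (fejer_nonneg _ _) (by positivity))]
    exact mul_le_of_le_one_right (div_nonneg (fejer_nonneg _ _) (by positivity))
      (norm_phase_le m f n s τ)
  · rw [← Finset.sum_div, sum_fejer (by omega) hn, div_self (by positivity)]

/-- The lower bound for the modulus. -/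
noncomputable def lower (m : ℕ) (f : ℕ → ℕ) (n : ℕ) (t : ℝ) : ℝ :=
  (∫ τ in (0 : ℝ)..1, graphSum m f t τ * test m f n t τ).re / √m

section

variable {m n R : ℕ} {f : ℕ → ℕ} {δ η ρ : ℝ}

lemma norm_sq_one (t : ℝ) : ∑ j ∈ range m, ‖e (t * (f j : ℝ))‖ ^ 2 = (m : ℝ) := by simp

lemma continuous_graph (t : ℝ) : Continuous fun τ => graphSum m f t τ := by
  unfold graphSum
  exact continuous_finsetSum _ fun j _ => continuous_e.comp' (by fun_prop)

lemma pair_ge (hm : 0 < m) (t : ℝ) (s : ℕ) :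
    -√m ≤ (∫ τ in (0 : ℝ)..1, graphSum m f t τ * phase m f n s τ).re ∧
      ∀ d, 0 < d → ∑ j ∈ range m,
        ‖e (t * (f j : ℝ)) - e ((s : ℝ) / (4 * n : ℕ) * (f j : ℝ))‖ ^ 2 ≤ d ^ 2 →
        (∫ τ in (0 : ℝ)..1, ‖graphSum m f ((s : ℝ) / (4 * n : ℕ)) τ‖) - d ≤
          (∫ τ in (0 : ℝ)..1, graphSum m f t τ * phase m f n s τ).re := by
  have hint : IntervalIntegrable (fun τ => graphSum m f t τ * phase m f n s τ) volume 0 1 :=
    ((nice_phase m f n s).intervalIntegrable 0 1).continuousOn_mul (continuous_graph t).continuousOn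
  have hre : (∫ τ in (0 : ℝ)..1, graphSum m f t τ * phase m f n s τ).re =
      ∫ τ in (0 : ℝ)..1, (graphSum m f t τ * phase m f n s τ).re :=
    (Complex.reCLM.intervalIntegral_comp_comm hint).symm
  have hint' : IntervalIntegrable (fun τ => (graphSum m f t τ * phase m f n s τ).re) volume 0 1 :=
    ⟨hint.1.re, hint.2.re⟩
  refine ⟨?_, fun d hd hle => ?_⟩
  · have h1 := integral_norm_le (fun j => e (t * (f j : ℝ))) (s := √m) (by positivity)
      (by rw [norm_sq_one, sq_sqrt (by positivity)])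
    simp only [← graphSum_eq] at h1
    rw [hre]
    refine le_trans ?_ (intervalIntegral.integral_mono_on (f := fun τ => -‖graphSum m f t τ‖) zero_le_one
      ((continuous_graph t).norm.fun_neg.intervalIntegrable 0 1) hint' fun τ _ => ?_)
    · rw [intervalIntegral.integral_neg]; linarith
    · refine neg_le_of_abs_le ((Complex.abs_re_le_norm _).trans ?_)
      rw [norm_mul]
      exact mul_le_of_le_one_right (norm_nonneg _) (norm_phase_le m f n s τ)
  · set t' := (s : ℝ) / (4 * n : ℕ)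
    have hd' := integral_norm_le (fun j => e (t * (f j : ℝ)) - e (t' * (f j : ℝ))) hd hle
    have hdiff : ∀ τ, ∑ j ∈ range m, (e (t * (f j : ℝ)) - e (t' * (f j : ℝ))) * e (τ * (j : ℝ)) =
        graphSum m f t τ - graphSum m f t' τ := fun τ => by
      simp [graphSum_eq, sub_mul]
    simp only [hdiff] at hd'
    have hcd : Continuous fun τ => ‖graphSum m f t τ - graphSum m f t' τ‖ :=
      ((continuous_graph t).sub (continuous_graph t')).norm
    rw [hre]
    refine le_trans ?_ (intervalIntegral.integral_mono_on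
      (f := fun τ => ‖graphSum m f t' τ‖ - ‖graphSum m f t τ - graphSum m f t' τ‖) zero_le_one
      (((continuous_graph t').norm.fun_sub hcd).intervalIntegrable 0 1) hint' fun τ _ => ?_)
    · rw [intervalIntegral.integral_sub ((continuous_graph t').norm.intervalIntegrable 0 1)
        (hcd.intervalIntegrable 0 1)]
      linarith
    · set z := graphSum m f t' τ
      set w := graphSum m f t τ
      show ‖z‖ - ‖w - z‖ ≤ _
      have h1 : (z * phase m f n s τ).re = ‖z‖ := by
        show (z * ((starRingEnd ℂ) z / (‖z‖ : ℂ))).re = _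
        rw [mul_div_assoc', Complex.mul_conj', sq, mul_div_assoc]
        rcases eq_or_ne ‖z‖ 0 with h | h
        · simp [h]
        · rw [div_self (by exact_mod_cast h), mul_one, Complex.ofReal_re]
      have h2 : |((w - z) * phase m f n s τ).re| ≤ ‖w - z‖ := by
        refine (Complex.abs_re_le_norm _).trans ?_
        rw [norm_mul]
        exact mul_le_of_le_one_right (norm_nonneg _) (norm_phase_le m f n s τ)
      rw [show w = z + (w - z) by ring, add_mul, Complex.add_re, h1]
      simp only [add_sub_cancel_left]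
      linarith [(abs_le.1 h2).1]

lemma lower_eq (t : ℝ) : lower m f n t = ∑ s ∈ range (4 * n),
    fejer n (t - (s : ℝ) / (4 * n : ℕ)) / (4 * n : ℕ) *
      ((∫ τ in (0 : ℝ)..1, graphSum m f t τ * phase m f n s τ).re / √m) := by
  have hi : ∀ s, IntervalIntegrable (fun τ => graphSum m f t τ * phase m f n s τ) volume 0 1 :=
    fun s => ((nice_phase m f n s).intervalIntegrable 0 1).continuousOn_mul
      (continuous_graph t).continuousOn
  simp only [lower, test, mul_sum, mul_left_comm (graphSum m f t _)]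
  rw [intervalIntegral.integral_finsetSum fun s _ => (hi s).const_mul _, Complex.re_sum,
    Finset.sum_div]
  refine sum_congr rfl fun s _ => ?_
  rw [intervalIntegral.integral_const_mul, Complex.re_ofReal_mul, mul_div_assoc]

lemma lower_bounds (hm : 0 < m) (hn : 0 < n) (hf : ∀ j, f j < R) (hρ : 0 < ρ) (hρη : ρ ≤ η)
    (hρR : 2 * π * R * ρ ≤ δ) (hnρ : 1 / (4 * ρ ^ 2 * n) ≤ δ)
    (hflat : ∀ t ∈ Set.Icc η (1 - η),
      (1 - δ) * √m ≤ ∫ τ in (0 : ℝ)..1, ‖graphSum m f t τ‖) (t : ℝ) :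
    -1 ≤ lower m f n t ∧ (t ∈ Set.Icc (2 * η) (1 - 2 * η) → 1 - 4 * δ ≤ lower m f n t) := by
  have hs : (0 : ℝ) < √m := by positivity
  set w : ℕ → ℝ := fun s => fejer n (t - (s : ℝ) / (4 * n : ℕ)) / (4 * n : ℕ) with hw
  have hw0 : ∀ s, 0 ≤ w s := fun s => div_nonneg (fejer_nonneg _ _) (by positivity)
  have hw1 : ∑ s ∈ range (4 * n), w s = 1 := by
    simp only [hw]
    rw [← Finset.sum_div, sum_fejer (by omega) hn, div_self (by positivity)]
  set I : ℕ → ℝ := fun s => (∫ τ in (0 : ℝ)..1, graphSum m f t τ * phase m f n s τ).re / √m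
  have hI : ∀ s, -1 ≤ I s := fun s => by
    simp only [I]; rw [le_div_iff₀ hs]; linarith [(pair_ge (n := n) hm t s (f := f)).1]
  have heq : lower m f n t = ∑ s ∈ range (4 * n), w s * I s := lower_eq t
  have hδ : 0 ≤ δ := le_trans (by positivity) hnρ
  refine ⟨?_, fun ht => ?_⟩
  · rw [heq, show (-1 : ℝ) = ∑ s ∈ range (4 * n), w s * -1 by rw [← Finset.sum_mul, hw1]; simp]
    exact sum_le_sum fun s _ => mul_le_mul_of_nonneg_left (hI s) (hw0 s)
  set far := (range (4 * n)).filter fun s : ℕ => ρ ≤ |t - (s : ℝ) / (4 * n : ℕ)|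
  have hfar : ∑ s ∈ far, w s ≤ δ := by
    refine le_trans (sum_le_card_nsmul _ _ (1 / (4 * ρ ^ 2 * n) / (4 * n : ℕ)) fun s hs => ?_) ?_
    · obtain ⟨hs, hd⟩ := mem_filter.1 hs
      refine div_le_div_of_nonneg_right (fejer_small hn hρ hd ?_) (by positivity)
      have h0 : 0 ≤ (s : ℝ) / (4 * n : ℕ) := by positivity
      have h1 : (s : ℝ) / (4 * n : ℕ) ≤ 1 := by
        rw [div_le_one (by positivity)]; exact_mod_cast (mem_range.1 hs).le
      rw [abs_le]
      constructor <;> linarith [ht.1, ht.2]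
    · rw [nsmul_eq_mul]
      refine le_trans ?_ hnρ
      refine (mul_le_mul_of_nonneg_right (Nat.cast_le.2 ((card_filter_le _ _).trans
        (card_range _).le)) (by positivity)).trans_eq ?_
      rw [mul_div_cancel₀ _ (by positivity)]
  have key : ∀ s ∈ range (4 * n),
      w s * (1 - 2 * δ) - (if ρ ≤ |t - (s : ℝ) / (4 * n : ℕ)| then 2 * w s else 0) ≤
        w s * I s := by
    intro s _
    by_cases hd : ρ ≤ |t - (s : ℝ) / (4 * n : ℕ)|
    · rw [if_pos hd]
      nlinarith [hI s, hw0 s, mul_le_mul_of_nonneg_left (hI s) (hw0 s), mul_nonneg (hw0 s) hδ]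
    · rw [if_neg hd, sub_zero]
      refine mul_le_mul_of_nonneg_left ?_ (hw0 s)
      push Not at hd
      have hd' := abs_lt.1 hd
      have hmem : (s : ℝ) / (4 * n : ℕ) ∈ Set.Icc η (1 - η) :=
        ⟨by linarith [ht.1], by linarith [ht.2]⟩
      have hR : (0 : ℝ) < R := by
        have := hf 0
        exact_mod_cast (show 0 < R by omega)
      have hp := (pair_ge (n := n) hm t s (f := f)).2 (2 * π * R * ρ * √m) (by positivity) ?_
      · simp only [I]
        rw [le_div_iff₀ hs]
        nlinarith [hflat _ hmem]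
      · have hb : ∀ j, ‖e (t * (f j : ℝ)) - e ((s : ℝ) / (4 * n : ℕ) * (f j : ℝ))‖ ≤
            2 * π * R * ρ := fun j => by
          refine (norm_e_sub_e _ _).trans ?_
          rw [← sub_mul, abs_mul, Nat.abs_cast]
          calc _ ≤ 2 * π * (ρ * R) := by
                gcongr
                exact_mod_cast (hf j).le
            _ = _ := by ring
        refine (sum_le_sum fun j _ => pow_le_pow_left₀ (norm_nonneg _) (hb j) 2).trans_eq ?_
        rw [mul_pow _ (√m), sq_sqrt (by positivity)]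
        simp [mul_comm]
  rw [heq]
  refine le_trans ?_ (sum_le_sum key)
  rw [sum_sub_distrib, ← Finset.sum_mul, hw1, ← sum_filter, ← Finset.mul_sum]
  linarith

/-- **The two weighted mean squares.** -/
theorem weighted {H dV : ℕ} {V : ℝ → ℝ} (hm : 0 < m) (hn : 0 < n) (hf : ∀ j, f j < R)
    (hρ : 0 < ρ) (hρη : ρ ≤ η) (hη : η ≤ 1 / 4) (hρR : 2 * π * R * ρ ≤ δ)
    (hnρ : 1 / (4 * ρ ^ 2 * n) ≤ δ)
    (hflat : ∀ t ∈ Set.Icc η (1 - η),
      (1 - δ) * √m ≤ ∫ τ in (0 : ℝ)..1, ‖graphSum m f t τ‖)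
    (hV : Sep dV fun t _ => (V t : ℂ)) (hV0 : ∀ t, 0 ≤ V t) (hH : dV + n + 2 * R < H) :
    (∫ t in (0 : ℝ)..1, V t * (‖graphSum m f t ((H : ℝ) * t)‖ / √m) ^ 2) =
      ∫ t in (0 : ℝ)..1, V t ∧
    (∫ t in (0 : ℝ)..1, V t * (‖graphSum m f t ((H : ℝ) * t)‖ / √m - 1) ^ 2) ≤
      8 * δ * (∫ t in (0 : ℝ)..1, V t) +
        4 * ((∫ t in (0 : ℝ)..2 * η, V t) + ∫ t in (1 - 2 * η)..1, V t) := by
  have hs : (0 : ℝ) < √m := by positivity
  have hsF := sep_graphSum m f R hf
  have hVc : Continuous V := (Complex.continuous_re.comp (hV.continuous_left 0)).congr fun t => by simp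
  have hFc : Continuous fun t => ‖graphSum m f t ((H : ℝ) * t)‖ / √m := by
    refine Continuous.div_const (Continuous.norm ?_) _
    simp only [graphSum]
    exact continuous_finsetSum _ fun j _ => continuous_e.comp' (by fun_prop)
  have hi1 : ∫ t in (0 : ℝ)..1, V t * (‖graphSum m f t ((H : ℝ) * t)‖ / √m) ^ 2 =
      ∫ t in (0 : ℝ)..1, V t := by
    have hS := hV.mul (hsF.mul (sep_conj hsF))
    have h := hS.integral_diag (H := H) (by omega)
    simp only [intervalIntegral.integral_const_mul] at h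
    have hsq : ∀ t τ : ℝ, graphSum m f t τ * (starRingEnd ℂ) (graphSum m f t τ) = ((‖graphSum m f t τ‖ ^ 2 : ℝ) : ℂ) :=
      fun t τ => by rw [Complex.mul_conj', Complex.ofReal_pow]
    simp only [hsq, intervalIntegral.integral_ofReal] at h
    simp only [graphSum_eq, integral_norm_sq, norm_sq_one, ← Complex.ofReal_mul,
      intervalIntegral.integral_ofReal, Complex.ofReal_inj] at h
    rw [intervalIntegral.integral_mul_const] at h
    simp only [div_pow, sq_sqrt (show (0 : ℝ) ≤ m by positivity), ← mul_div_assoc]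
    rw [intervalIntegral.integral_div]
    simp only [graphSum_eq]
    rw [h, mul_div_cancel_right₀ _ (by positivity)]
  refine ⟨hi1, ?_⟩
  have hS := hV.mul (hsF.mul (sep_test m f n))
  have h := hS.integral_diag (H := H) (by omega)
  simp only [intervalIntegral.integral_const_mul] at h
  have hG : Continuous fun t => ∫ τ in (0 : ℝ)..1, graphSum m f t τ * test m f n t τ :=
    (hsF.mul (sep_test m f n)).continuous_integral
  have hB : Continuous (lower m f n) := (Complex.continuous_re.comp hG).div_const _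
  have hlow : ∫ t in (0 : ℝ)..1, V t * lower m f n t ≤
      ∫ t in (0 : ℝ)..1, V t * (‖graphSum m f t ((H : ℝ) * t)‖ / √m) := by
    have hl : ∫ t in (0 : ℝ)..1, V t * lower m f n t =
        (∫ t in (0 : ℝ)..1, (V t : ℂ) * (graphSum m f t ((H : ℝ) * t) * test m f n t ((H : ℝ) * t))).re / √m := by
      rw [h]
      have hc : IntervalIntegrable
          (fun t => (V t : ℂ) * ∫ τ in (0 : ℝ)..1, graphSum m f t τ * test m f n t τ) volume 0 1 :=
        ((Complex.continuous_ofReal.comp hVc).mul hG).intervalIntegrable 0 1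
      rw [← Complex.reCLM_apply, ← Complex.reCLM.intervalIntegral_comp_comm hc, ← intervalIntegral.integral_div]
      refine intervalIntegral.integral_congr fun t _ => ?_
      simp only [Complex.reCLM_apply, Complex.re_ofReal_mul, lower, mul_div_assoc]
    rw [hl]
    have hd := hS.intervalIntegrable_diag H 0 1
    rw [← Complex.reCLM_apply, ← Complex.reCLM.intervalIntegral_comp_comm hd, ← intervalIntegral.integral_div]
    refine intervalIntegral.integral_mono_on zero_le_one
      ⟨(hd.1.re).div_const _, (hd.2.re).div_const _⟩ ((hVc.mul hFc).intervalIntegrable 0 1)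
      fun t _ => ?_
    show (((V t : ℂ) * _).re) / _ ≤ V t * (_ / _)
    rw [Complex.re_ofReal_mul, mul_div_assoc]
    refine mul_le_mul_of_nonneg_left (div_le_div_of_nonneg_right ((Complex.re_le_norm _).trans ?_)
      hs.le) (hV0 t)
    rw [norm_mul]
    exact mul_le_of_le_one_right (norm_nonneg _) (norm_test_le hn _ _)
  have hexp : ∫ t in (0 : ℝ)..1, V t * (‖graphSum m f t ((H : ℝ) * t)‖ / √m - 1) ^ 2 =
      2 * (∫ t in (0 : ℝ)..1, V t) - 2 * ∫ t in (0 : ℝ)..1, V t * (‖graphSum m f t ((H : ℝ) * t)‖ / √m) := by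
    have e : ∀ t, V t * (‖graphSum m f t ((H : ℝ) * t)‖ / √m - 1) ^ 2 = V t * (‖graphSum m f t ((H : ℝ) * t)‖ / √m) ^ 2 +
        (V t - 2 * (V t * (‖graphSum m f t ((H : ℝ) * t)‖ / √m))) := fun t => by ring
    simp only [e]
    rw [intervalIntegral.integral_add ((hVc.fun_mul (hFc.fun_pow 2)).intervalIntegrable 0 1)
      ((hVc.fun_sub ((hVc.fun_mul hFc).const_mul 2)).intervalIntegrable 0 1),
      intervalIntegral.integral_sub (hVc.intervalIntegrable 0 1)
      (((hVc.fun_mul hFc).const_mul 2).intervalIntegrable 0 1), intervalIntegral.integral_const_mul, hi1]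
    ring
  have hgap : Continuous fun t => V t * (1 - lower m f n t) := hVc.fun_mul (continuous_const.sub hB)
  have hδ : 0 ≤ δ := le_trans (by positivity) hnρ
  have hb := fun t => lower_bounds hm hn hf hρ hρη hρR hnρ hflat (f := f) t
  have h1 : ∫ t in (0 : ℝ)..2 * η, V t * (1 - lower m f n t) ≤ 2 * ∫ t in (0 : ℝ)..2 * η, V t := by
    rw [← intervalIntegral.integral_const_mul]
    exact intervalIntegral.integral_mono_on (by linarith [hρ.trans_le hρη])
      (hgap.intervalIntegrable _ _) ((hVc.const_mul 2).intervalIntegrable _ _)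
      fun t _ => by nlinarith [(hb t).1, hV0 t]
  have h3 : ∫ t in (1 - 2 * η)..1, V t * (1 - lower m f n t) ≤
      2 * ∫ t in (1 - 2 * η)..1, V t := by
    rw [← intervalIntegral.integral_const_mul]
    exact intervalIntegral.integral_mono_on (by linarith [hρ.trans_le hρη])
      (hgap.intervalIntegrable _ _) ((hVc.const_mul 2).intervalIntegrable _ _)
      fun t _ => by nlinarith [(hb t).1, hV0 t]
  have h2 : ∫ t in (2 * η)..(1 - 2 * η), V t * (1 - lower m f n t) ≤
      4 * δ * ∫ t in (0 : ℝ)..1, V t := by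
    rw [← intervalIntegral.integral_const_mul]
    refine (intervalIntegral.integral_mono_on (by linarith) (hgap.intervalIntegrable _ _)
      ((hVc.const_mul (4 * δ)).intervalIntegrable _ _)
      fun t ht => by nlinarith [(hb t).2 ht, hV0 t]).trans ?_
    refine intervalIntegral.integral_mono_interval (by linarith [hρ.trans_le hρη]) (by linarith)
      (by linarith [hρ.trans_le hρη]) (ae_of_all _ fun t => ?_)
      ((hVc.const_mul (4 * δ)).intervalIntegrable _ _)
    have := hV0 t
    show 0 ≤ 4 * δ * V t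
    positivity
  have hsplit : (∫ t in (0 : ℝ)..2 * η, V t * (1 - lower m f n t)) +
      (∫ t in (2 * η)..(1 - 2 * η), V t * (1 - lower m f n t)) +
      (∫ t in (1 - 2 * η)..1, V t * (1 - lower m f n t)) =
      (∫ t in (0 : ℝ)..1, V t) - ∫ t in (0 : ℝ)..1, V t * lower m f n t := by
    rw [intervalIntegral.integral_add_adjacent_intervals (hgap.intervalIntegrable _ _)
      (hgap.intervalIntegrable _ _), intervalIntegral.integral_add_adjacent_intervals
      (hgap.intervalIntegrable _ _) (hgap.intervalIntegrable _ _),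
      ← intervalIntegral.integral_sub (hVc.intervalIntegrable 0 1)
        ((hVc.fun_mul hB).intervalIntegrable 0 1)]
    refine intervalIntegral.integral_congr fun t _ => ?_
    ring
  rw [hexp]
  linarith

end

end Vale.Agent.P130.Rank.GS
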